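import Vale.Agent.P002.Product
import Vale.Agent.P002.Bd.Final
import Vale.Agent.P002.Bd.ProductAll

/-!
# P002: integral points are dense in character varieties of curves and of their products
-/

namespace Vale.Agent.Results.P002.SurfaceIntegralDense

open Matrix Vale.Agent.P002

/-- Value of a polynomial in the entries at a tuple of matrices. -/
noncomputable def evalAt {ι : Type} {r : ℕ} (f : MvPolynomial (ι × Fin r × Fin r) ℂ)
    (ρ : ι → Matrix (Fin r) (Fin r) ℂ) : ℂ :=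
  MvPolynomial.eval (fun x => ρ x.1 x.2.1 x.2.2) f

/-- The polynomial is invariant under simultaneous conjugation. -/
def ConjInv {ι : Type} {r : ℕ} (f : MvPolynomial (ι × Fin r × Fin r) ℂ) : Prop :=
  ∀ (P P' : Matrix (Fin r) (Fin r) ℂ) (ρ : ι → Matrix (Fin r) (Fin r) ℂ),
    P * P' = 1 → evalAt f (fun k => P * ρ k * P') = evalAt f ρ

/-- Every common invariant subspace has a common invariant complement. -/
def Semisimple {ι : Type} {r : ℕ} (ρ : ι → Matrix (Fin r) (Fin r) ℂ) : Prop :=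
  ∀ U : Submodule ℂ (Fin r → ℂ), (∀ k, ∀ x ∈ U, ρ k *ᵥ x ∈ U) →
    ∃ V : Submodule ℂ (Fin r → ℂ), (∀ k, ∀ x ∈ V, ρ k *ᵥ x ∈ V) ∧ IsCompl U V

/-- Only scalars commute with the tuple. -/
def ScalarCommutant {ι : Type} {r : ℕ} (ρ : ι → Matrix (Fin r) (Fin r) ℂ) : Prop :=
  ∀ c : Matrix (Fin r) (Fin r) ℂ, (∀ k, c * ρ k = ρ k * c) →
    ∃ z : ℂ, c = z • (1 : Matrix (Fin r) (Fin r) ℂ)

/-- The surface word `∏ [a_i, b_i]`. -/
noncomputable def surfWord {g r : ℕ} (a b : Fin g → Matrix (Fin r) (Fin r) ℂ) :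
    Matrix (Fin r) (Fin r) ℂ :=
  (List.ofFn fun i => a i * b i * (a i)⁻¹ * (b i)⁻¹).prod

/-- Entries in `S` and determinant one. -/
def InSL {ι : Type} {r : ℕ} (S : Subring ℂ) (ρ : ι → Matrix (Fin r) (Fin r) ℂ) : Prop :=
  (∀ k a b, ρ k a b ∈ S) ∧ ∀ k, (ρ k).det = 1

/-- `m` is conjugate to `c`. -/
def Conjugate {r : ℕ} (c m : Matrix (Fin r) (Fin r) ℂ) : Prop :=
  ∃ P P' : Matrix (Fin r) (Fin r) ℂ, P * P' = 1 ∧ P * c * P' = m

/-- Every eigenvalue is a root of unity. -/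
def QuasiUnipotent {r : ℕ} (c : Matrix (Fin r) (Fin r) ℂ) : Prop :=
  ∀ z : ℂ, c.charpoly.IsRoot z → ∃ n : ℕ, 0 < n ∧ z ^ n = 1

/-- No common invariant subspace other than zero and everything. -/
def IrreducibleTuple {ι : Type} {r : ℕ} (ρ : ι → Matrix (Fin r) (Fin r) ℂ) : Prop :=
  ∀ U : Submodule ℂ (Fin r → ℂ), (∀ k, ∀ x ∈ U, ρ k *ᵥ x ∈ U) → U = ⊥ ∨ U = ⊤

/-- A tuple of determinant one on a genus `g` surface with `s` punctures, with the relation and with
meridians conjugate to the `c j`. -/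
def PuncturedRep {g s r : ℕ} (c : Fin s → Matrix (Fin r) (Fin r) ℂ)
    (σ : (Fin g × Bool) ⊕ Fin s → Matrix (Fin r) (Fin r) ℂ) : Prop :=
  (∀ k, (σ k).det = 1) ∧ (∀ j, Conjugate (c j) (σ (Sum.inr j))) ∧
    surfWord (fun i => σ (Sum.inl (i, false))) (fun i => σ (Sum.inl (i, true))) *
      (List.ofFn fun j => σ (Sum.inr j)).prod = 1

/-- `ℤ[√2, exp (2πi / M)]`. -/
noncomputable def cycloRing (M : ℕ) : Subring ℂ := Subring.closure
  {((Real.sqrt 2 : ℝ) : ℂ), Complex.exp (2 * Real.pi * Complex.I / (M : ℕ))}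

/-- First part: for every genus `g ≥ 2` and rank `r ≥ 2`, every polynomial vanishing at all
`SL_r(ℤ)` representations of the genus `g` surface group vanishes at every `SL_r(ℂ)` representation
that is semisimple or has scalar commutant.

Second part: for a product of `m` surface groups of genera `g i` and `m'` free groups of ranks `n j`,
every conjugation invariant polynomial vanishing at all representations with entries in `ℤ[√2, ζ]`,
`ζ = exp (2πi / r!)`, vanishes at every semisimple representation.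

Third part: for `g ≥ 2`, `r ≥ 2`, any number `s` of punctures and any quasi-unipotent classes `c j`
of determinant one: for some `M > 0` every polynomial vanishing at all irreducible tuples over
`ℤ[√2, exp (2πi / M)]` in these classes vanishes at every complex semisimple or scalar commutant
tuple in these classes.

Fourth part: for a product of curves, of genus at least two wherever punctured, and any
quasi-unipotent classes at the punctures: for some `M > 0` every invariant polynomial vanishing at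
all semisimple representations over `ℤ[√2, exp (2πi / M)]` with meridians in the classes vanishes at
every semisimple one with meridians in the classes. -/
theorem result :
    (∀ (g r : ℕ), 2 ≤ g → 2 ≤ r →
      ∀ σ : Fin g × Bool → Matrix (Fin r) (Fin r) ℂ, (∀ k, (σ k).det = 1) →
      surfWord (fun i => σ (i, false)) (fun i => σ (i, true)) = 1 →
      (Semisimple σ ∨ ScalarCommutant σ) →
      ∀ f : MvPolynomial ((Fin g × Bool) × Fin r × Fin r) ℂ,
      (∀ τ, InSL (⊥ : Subring ℂ) τ →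
        surfWord (fun i => τ (i, false)) (fun i => τ (i, true)) = 1 → evalAt f τ = 0) →
      evalAt f σ = 0) ∧
    (∀ (m m' : ℕ) (g : Fin m → ℕ) (n : Fin m' → ℕ) (r : ℕ)
      (σ : (Σ i, Fin (g i) × Bool) ⊕ (Σ j, Fin (n j)) → Matrix (Fin r) (Fin r) ℂ),
      (∀ x, (σ x).det = 1) →
      (∀ i, surfWord (fun a => σ (Sum.inl ⟨i, (a, false)⟩))
        (fun a => σ (Sum.inl ⟨i, (a, true)⟩)) = 1) →
      (∀ x y, Sum.map Sigma.fst Sigma.fst x ≠ Sum.map Sigma.fst Sigma.fst y →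
        σ x * σ y = σ y * σ x) →
      Semisimple σ →
      ∀ f : MvPolynomial (((Σ i, Fin (g i) × Bool) ⊕ (Σ j, Fin (n j))) × Fin r × Fin r) ℂ,
      ConjInv f →
      (∀ ρ, InSL (cycloRing r.factorial) ρ →
        (∀ i, surfWord (fun a => ρ (Sum.inl ⟨i, (a, false)⟩))
          (fun a => ρ (Sum.inl ⟨i, (a, true)⟩)) = 1) →
        (∀ x y, Sum.map Sigma.fst Sigma.fst x ≠ Sum.map Sigma.fst Sigma.fst y →
          ρ x * ρ y = ρ y * ρ x) →
        evalAt f ρ = 0) →
      evalAt f σ = 0) ∧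
    (∀ (g r s : ℕ), 2 ≤ g → 2 ≤ r →
      ∀ c : Fin s → Matrix (Fin r) (Fin r) ℂ, (∀ j, (c j).det = 1) → (∀ j, QuasiUnipotent (c j)) →
      ∃ M : ℕ, 0 < M ∧
      ∀ σ : (Fin g × Bool) ⊕ Fin s → Matrix (Fin r) (Fin r) ℂ, PuncturedRep c σ →
      (Semisimple σ ∨ ScalarCommutant σ) →
      ∀ f : MvPolynomial (((Fin g × Bool) ⊕ Fin s) × Fin r × Fin r) ℂ,
      (∀ τ, InSL (cycloRing M) τ → PuncturedRep c τ → IrreducibleTuple τ → evalAt f τ = 0) →
      evalAt f σ = 0) ∧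
    (∀ (m : ℕ) (g s : Fin m → ℕ), (∀ i, s i ≠ 0 → 2 ≤ g i) →
      ∀ (r : ℕ) (c : ∀ i, Fin (s i) → Matrix (Fin r) (Fin r) ℂ), (∀ i p, QuasiUnipotent (c i p)) →
      ∃ M : ℕ, 0 < M ∧
      ∀ σ : (Σ i, (Fin (g i) × Bool) ⊕ Fin (s i)) → Matrix (Fin r) (Fin r) ℂ,
      (∀ i, PuncturedRep (c i) fun a => σ ⟨i, a⟩) →
      (∀ x y, x.1 ≠ y.1 → σ x * σ y = σ y * σ x) → Semisimple σ →
      ∀ f : MvPolynomial ((Σ i, (Fin (g i) × Bool) ⊕ Fin (s i)) × Fin r × Fin r) ℂ, ConjInv f →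
      (∀ ρ, InSL (cycloRing M) ρ → (∀ i, PuncturedRep (c i) fun a => ρ ⟨i, a⟩) →
        (∀ x y, x.1 ≠ y.1 → ρ x * ρ y = ρ y * ρ x) → Semisimple ρ → evalAt f ρ = 0) →
      evalAt f σ = 0) := by
  refine ⟨fun g r hg hr σ hdet hrel hσ f hf => ?_,
    fun m m' g n r σ hdet hrel hcomm hs f hinv hf =>
      Prod.vanish_curves g n σ hdet hrel hcomm hs f hinv fun ρ h1 h2 => hf ρ ⟨h1, h2⟩,
    fun g r s hg hr c hc1 hqu => ?_, fun m g s hg r c hqu => ?_⟩
  rotate_left
  · obtain ⟨M, hM, h⟩ := Bd.vanish_boundary_classes hg hr c hc1 hqu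
    exact ⟨M, hM, fun σ hσ' hσ f hf =>
      h σ hσ'.1 hσ'.2.1 hσ'.2.2 hσ f fun τ h1 h2 h3 h4 => hf τ ⟨h1, h2⟩ ⟨h2, h3, h4⟩⟩
  · obtain ⟨M, hM, h⟩ := Bd.exists_vanish_product g s hg c hqu
    exact ⟨M, hM, fun σ hσ' hcomm hs f hinv hf =>
      h σ (fun i => ⟨(hσ' i).1, (hσ' i).2.1, (hσ' i).2.2⟩) hcomm hs f hinv
        fun ρ h1 h2 => hf ρ ⟨h1, fun x => (h2 x.1).det x.2⟩
          fun i => ⟨(h2 i).det, (h2 i).cls, (h2 i).rel⟩⟩
  have hinv : ∀ ρ : Fin g × Bool → Matrix (Fin r) (Fin r) ℂ, (∀ k, (ρ k).det = 1) →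
      rel adjugate ρ = surfWord (fun i => ρ (i, false)) (fun i => ρ (i, true)) := by
    intro ρ hρ
    simp only [surfWord, rel, cmList, cm, Matrix.inv_def, hρ, Ring.inverse_one, one_smul]
  have key : InV σ := by
    rcases hσ with hs | hc
    · exact inV_of_semisimple hg hr ⟨hdet, (hinv σ hdet).trans hrel⟩ hs
    · exact inV_of_schur hg hr ⟨hdet, (hinv σ hdet).trans hrel⟩ hc
  refine key f fun τ hτ => ?_
  have hd' : ∀ k, (Matrix.of fun a b => (((τ k : Matrix (Fin r) (Fin r) ℤ) a b : ℤ) : ℂ)).det = 1 :=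
    fun k => by
      show ((Int.castRingHom ℂ).mapMatrix (τ k : Matrix (Fin r) (Fin r) ℤ)).det = 1
      rw [← RingHom.map_det, (τ k).2, map_one]
  refine hf (fun k => Matrix.of fun a b => (((τ k : Matrix (Fin r) (Fin r) ℤ) a b : ℤ) : ℂ))
    ⟨fun k a b => Subring.mem_bot.2 ⟨_, rfl⟩, hd'⟩ ?_
  rw [← hinv _ hd']
  show rel adjugate (castT τ) = 1
  rw [castT_eq, ← map_rel (fun x : SpecialLinearGroup (Fin r) ℤ => x⁻¹) adjugate (toC r) toC_inv, hτ,
    map_one]

end Vale.Agent.Results.P002.SurfaceIntegralDense
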